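import Vale.Agent.P229.Kin

/-!
# P229: classes of metrics with arbitrary smooth data that are locally realizable
-/

set_option autoImplicit false

open Set MeasureTheory
open scoped ContDiff Topology Matrix

namespace Vale.Agent.P229

/-- general kinematic form -/
theorem kinematic (p γ w : ℝ → Fin 3 → ℝ) (hp : ContDiff ℝ ∞ p) (hγ : ContDiff ℝ ∞ γ)
    (hw : ContDiff ℝ ∞ w) (u₀ v₀ : ℝ) :
    Realizable (fun u _ => deriv p u ⬝ᵥ deriv p u)
      (fun u v => deriv p u ⬝ᵥ (γ v + w v ⨯₃ p u))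
      (fun u v => (γ v + w v ⨯₃ p u) ⬝ᵥ (γ v + w v ⨯₃ p u)) u₀ v₀ := by
  have hpd : ∀ u, HasDerivAt p (deriv p u) u := fun u =>
    (hp.differentiable (by simp)).differentiableAt.hasDerivAt
  have hP : ContDiff ℝ ∞ (deriv p) := (contDiff_infty_iff_deriv.1 hp).2
  have hwc : ∀ i, ContDiff ℝ ∞ (fun v => w v i) := fun i => contDiff_pi.1 hw i
  refine kin univ univ isOpen_univ isOpen_univ u₀ v₀ (mem_univ _) (mem_univ _) p (deriv p)
    (fun v => ![![0, - w v 2, w v 1], ![w v 2, 0, - w v 0], ![- w v 1, w v 0, 0]]) γ ?_ ?_ ?_ ?_ ?_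
    _ _ _ ?_ ?_ ?_
  · exact fun u _ j => hasDerivAt_pi.1 (hpd u) j
  · exact fun j => (contDiff_pi.1 hP j).contDiffOn
  · intro i j
    fin_cases i <;> fin_cases j <;> simp only [] <;>
      first
        | exact contDiffOn_const
        | exact (hwc _).contDiffOn
        | exact (hwc _).neg.contDiffOn
  · exact fun i => (contDiff_pi.1 hγ i).contDiffOn
  · intro v i j
    fin_cases i <;> fin_cases j <;> simp
  · intro u _ v _
    simp [dotProduct]
  · intro u _ v _
    simp only [dotProduct, Fin.sum_univ_three, Pi.add_apply, cross_apply, Matrix.cons_val]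
    ring
  · intro u _ v _
    simp only [dotProduct, Fin.sum_univ_three, Pi.add_apply, cross_apply, Matrix.cons_val]
    ring

theorem smooth_sqrt {s : ℝ → ℝ} (hs : ContDiff ℝ ∞ s) :
    ContDiffOn ℝ ∞ (fun u => Real.sqrt (s u)) {u | 0 < s u} :=
  hs.contDiffOn.sqrt fun u hu => ne_of_gt hu

theorem prim {f : ℝ → ℝ} (hf : Continuous f) (u₀ u : ℝ) :
    HasDerivAt (fun u => ∫ t in u₀..u, f t) (f u) u :=
  (hf.integral_hasStrictDerivAt u₀ u).hasDerivAt

/-- translation surfaces: `E(u) du² + 2 f(u) g(v) du dv + G(v) dv²` -/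
theorem translation (E f g G : ℝ → ℝ) (hE : ContDiff ℝ ∞ E) (hf : ContDiff ℝ ∞ f)
    (hg : ContDiff ℝ ∞ g) (hG : ContDiff ℝ ∞ G) (u₀ v₀ : ℝ) (h0 : 0 < E u₀)
    (h1 : (f u₀ * g v₀) ^ 2 < E u₀ * G v₀) :
    Realizable (fun u _ => E u) (fun u v => f u * g v) (fun _ v => G v) u₀ v₀ := by
  have hG0 : 0 < G v₀ := by
    by_contra h
    push Not at h
    have h2 : E u₀ * G v₀ ≤ 0 := mul_nonpos_of_nonneg_of_nonpos h0.le h
    linarith [sq_nonneg (f u₀ * g v₀)]
  set t : ℝ := (E u₀ + g v₀ ^ 2) / (G v₀ + f u₀ ^ 2) with ht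
  have hden : 0 < G v₀ + f u₀ ^ 2 := by positivity
  have htpos : 0 < t := by positivity
  have htm : t * (G v₀ + f u₀ ^ 2) = E u₀ + g v₀ ^ 2 := by
    rw [ht]; field_simp
  have hA : 0 < E u₀ - t * f u₀ ^ 2 := by
    have h2 : (E u₀ - t * f u₀ ^ 2) * (G v₀ + f u₀ ^ 2) = E u₀ * G v₀ - (f u₀ * g v₀) ^ 2 := by
      linear_combination (- f u₀ ^ 2) * htm
    by_contra h
    push Not at h
    nlinarith
  have hB : 0 < t * G v₀ - g v₀ ^ 2 := by
    have h2 : (t * G v₀ - g v₀ ^ 2) * (G v₀ + f u₀ ^ 2) = E u₀ * G v₀ - (f u₀ * g v₀) ^ 2 := by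
      linear_combination (G v₀) * htm
    by_contra h
    push Not at h
    nlinarith
  set l : ℝ := Real.sqrt t with hl
  have hlpos : 0 < l := Real.sqrt_pos.2 htpos
  have hll : l * l = t := Real.mul_self_sqrt htpos.le
  have hS1 : ContDiff ℝ ∞ (fun u => E u - t * f u ^ 2) :=
    hE.sub (contDiff_const.mul (hf.pow 2))
  have hS2 : ContDiff ℝ ∞ (fun v => t * G v - g v ^ 2) :=
    (contDiff_const.mul hG).sub (hg.pow 2)
  have hc1 : Continuous (fun u => Real.sqrt (E u - t * f u ^ 2)) := hS1.continuous.sqrt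
  refine kin {u | 0 < E u - t * f u ^ 2} {v | 0 < t * G v - g v ^ 2}
    (isOpen_lt continuous_const hS1.continuous) (isOpen_lt continuous_const hS2.continuous)
    u₀ v₀ hA hB
    (fun u => ![∫ s in u₀..u, l * f s, ∫ s in u₀..u, Real.sqrt (E s - t * f s ^ 2), 0])
    (fun u => ![l * f u, Real.sqrt (E u - t * f u ^ 2), 0])
    (fun _ _ _ => 0)
    (fun v => ![g v / l, 0, Real.sqrt (t * G v - g v ^ 2) / l]) ?_ ?_ ?_ ?_ ?_ _ _ _ ?_ ?_ ?_
  · intro u _ j
    fin_cases j
    · exact prim (continuous_const.mul hf.continuous) u₀ u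
    · exact prim hc1 u₀ u
    · exact hasDerivAt_const u (0 : ℝ)
  · intro j
    fin_cases j
    · exact (contDiff_const.mul hf).contDiffOn
    · exact smooth_sqrt hS1
    · exact contDiffOn_const
  · exact fun i j => contDiffOn_const
  · intro j
    fin_cases j
    · exact (hg.div_const l).contDiffOn
    · exact contDiffOn_const
    · exact (smooth_sqrt hS2).div_const l
  · intro v i j
    simp
  · intro u hu v _
    have h3 : Real.sqrt (E u - t * f u ^ 2) * Real.sqrt (E u - t * f u ^ 2) = E u - t * f u ^ 2 :=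
      Real.mul_self_sqrt (le_of_lt hu)
    simp only [Fin.sum_univ_three, Matrix.cons_val]
    rw [h3]
    linear_combination (- f u ^ 2) * hll
  · intro u _ v _
    simp only [Fin.sum_univ_three, Matrix.cons_val]
    field_simp
    ring
  · intro u _ v hv
    have h3 : Real.sqrt (t * G v - g v ^ 2) * Real.sqrt (t * G v - g v ^ 2) = t * G v - g v ^ 2 :=
      Real.mul_self_sqrt (le_of_lt hv)
    simp only [Fin.sum_univ_three, Matrix.cons_val]
    have h4 : G v * (l * l) = g v * g v +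
        Real.sqrt (t * G v - g v ^ 2) * Real.sqrt (t * G v - g v ^ 2) := by
      rw [h3, hll]; ring
    generalize Real.sqrt (t * G v - g v ^ 2) = r at h4 ⊢
    field_simp
    linear_combination h4

/-- molding surfaces, two profile functions -/
theorem molding2 (L : Set ℝ) (hL : IsOpen L) (x z x' z' a b c : ℝ → ℝ)
    (hx : ∀ u ∈ L, HasDerivAt x (x' u) u) (hz : ∀ u ∈ L, HasDerivAt z (z' u) u)
    (hx' : ContDiffOn ℝ ∞ x' L) (hz' : ContDiffOn ℝ ∞ z' L) (ha : ContDiff ℝ ∞ a)
    (hb : ContDiff ℝ ∞ b) (hc : ContDiff ℝ ∞ c) (u₀ v₀ : ℝ) (hu : u₀ ∈ L) (E G : ℝ → ℝ → ℝ)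
    (hE : ∀ u ∈ L, ∀ v, E u v = x' u ^ 2 + z' u ^ 2)
    (hG : ∀ u ∈ L, ∀ v, G u v = (a v + b v * x u + c v * z u) ^ 2) :
    Realizable E (fun _ _ => 0) G u₀ v₀ := by
  refine kin L univ hL isOpen_univ u₀ v₀ hu (mem_univ _) (fun u => ![0, x u, z u])
    (fun u => ![0, x' u, z' u])
    (fun v => ![![0, b v, c v], ![- b v, 0, 0], ![- c v, 0, 0]]) (fun v => ![a v, 0, 0])
    ?_ ?_ ?_ ?_ ?_ _ _ _ ?_ ?_ ?_
  · intro u hu' j
    fin_cases j
    · exact hasDerivAt_const u (0 : ℝ)
    · exact hx u hu'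
    · exact hz u hu'
  · intro j
    fin_cases j
    · exact contDiffOn_const
    · exact hx'
    · exact hz'
  · intro i j
    fin_cases i <;> fin_cases j <;>
      first
        | exact contDiffOn_const
        | exact hb.contDiffOn
        | exact hc.contDiffOn
        | exact hb.neg.contDiffOn
        | exact hc.neg.contDiffOn
  · intro j
    fin_cases j
    · exact ha.contDiffOn
    · exact contDiffOn_const
    · exact contDiffOn_const
  · intro v i j
    fin_cases i <;> fin_cases j <;> simp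
  · intro u hu' v _
    rw [hE u hu' v]
    simp only [Fin.sum_univ_three, Matrix.cons_val]
    ring
  · intro u _ v _
    simp only [Fin.sum_univ_three, Matrix.cons_val]
    ring
  · intro u hu' v _
    rw [hG u hu' v]
    simp only [Fin.sum_univ_three, Matrix.cons_val]
    ring

/-- molding surfaces with arbitrary smooth data: `E(u) du² + (a(v) + b(v) x(u))² dv²` -/
theorem molding (E x a b : ℝ → ℝ) (hE : ContDiff ℝ ∞ E) (hx : ContDiff ℝ ∞ x)
    (ha : ContDiff ℝ ∞ a) (hb : ContDiff ℝ ∞ b) (u₀ v₀ : ℝ) (h0 : 0 < E u₀) :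
    Realizable (fun u _ => E u) (fun _ _ => 0) (fun u v => (a v + b v * x u) ^ 2) u₀ v₀ := by
  have hx' : ContDiff ℝ ∞ (deriv x) := (contDiff_infty_iff_deriv.1 hx).2
  have hxd : ∀ u, HasDerivAt x (deriv x u) u := fun u =>
    (hx.differentiable (by simp)).differentiableAt.hasDerivAt
  set t : ℝ := E u₀ / (1 + deriv x u₀ ^ 2) with ht
  have hden : 0 < 1 + deriv x u₀ ^ 2 := by positivity
  have htpos : 0 < t := by positivity
  have htm : t * (1 + deriv x u₀ ^ 2) = E u₀ := by
    rw [ht]; field_simp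
  have hA : 0 < E u₀ - t * deriv x u₀ ^ 2 := by linarith
  set l : ℝ := Real.sqrt t with hl
  have hlpos : 0 < l := Real.sqrt_pos.2 htpos
  have hll : l * l = t := Real.mul_self_sqrt htpos.le
  have hS1 : ContDiff ℝ ∞ (fun u => E u - t * deriv x u ^ 2) :=
    hE.sub (contDiff_const.mul (hx'.pow 2))
  have hc1 : Continuous (fun u => Real.sqrt (E u - t * deriv x u ^ 2)) := hS1.continuous.sqrt
  refine molding2 {u | 0 < E u - t * deriv x u ^ 2} (isOpen_lt continuous_const hS1.continuous)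
    (fun u => l * x u) (fun u => ∫ s in u₀..u, Real.sqrt (E s - t * deriv x s ^ 2))
    (fun u => l * deriv x u) (fun u => Real.sqrt (E u - t * deriv x u ^ 2)) a (fun v => b v / l)
    (fun _ => 0) (fun u _ => (hxd u).const_mul l) (fun u _ => prim hc1 u₀ u)
    (contDiff_const.mul hx').contDiffOn (smooth_sqrt hS1) ha (hb.div_const l) contDiff_const
    u₀ v₀ hA _ _ ?_ ?_
  · intro u hu v
    have h3 : Real.sqrt (E u - t * deriv x u ^ 2) ^ 2 = E u - t * deriv x u ^ 2 :=
      Real.sq_sqrt (le_of_lt hu)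
    rw [h3]
    linear_combination (- deriv x u ^ 2) * hll
  · intro u _ v
    field_simp
    ring

end Vale.Agent.P229
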