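import Mathlib

/-!
# P229: smooth local solutions of `M' = M W(v)`, `c' = M γ(v)` with `W` skew-symmetric
-/

set_option autoImplicit false

open Set
open scoped ContDiff Topology

namespace Vale.Agent.P229

theorem const_of_deriv_zero {a b : ℝ} {f : ℝ → ℝ} (hf : ∀ t ∈ Ioo a b, HasDerivAt f 0 t)
    {s t : ℝ} (hs : s ∈ Ioo a b) (ht : t ∈ Ioo a b) : f s = f t := by
  have hd : DifferentiableOn ℝ f (Ioo a b) := fun x hx =>
    (hf x hx).differentiableAt.differentiableWithinAt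
  have h0 : EqOn (deriv f) 0 (Ioo a b) := fun x hx => (hf x hx).deriv
  exact isOpen_Ioo.is_const_of_deriv_eq_zero isPreconnected_Ioo hd h0 hs ht

theorem fst_deriv {E F : Type*} [NormedAddCommGroup E] [NormedSpace ℝ E] [NormedAddCommGroup F]
    [NormedSpace ℝ F] {f : ℝ → E × F} {f' : E × F} {t : ℝ} (h : HasDerivAt f f' t) :
    HasDerivAt (fun t => (f t).1) f'.1 t :=
  (ContinuousLinearMap.fst ℝ E F).hasFDerivAt.comp_hasDerivAt t h

theorem snd_deriv {E F : Type*} [NormedAddCommGroup E] [NormedSpace ℝ E] [NormedAddCommGroup F]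
    [NormedSpace ℝ F] {f : ℝ → E × F} {f' : E × F} {t : ℝ} (h : HasDerivAt f f' t) :
    HasDerivAt (fun t => (f t).2) f'.2 t :=
  (ContinuousLinearMap.snd ℝ E F).hasFDerivAt.comp_hasDerivAt t h

theorem frame (J : Set ℝ) (hJ : IsOpen J) (v₀ : ℝ) (hv : v₀ ∈ J) (W : ℝ → Fin 3 → Fin 3 → ℝ)
    (γ : ℝ → Fin 3 → ℝ) (hW : ∀ i j, ContDiffOn ℝ ∞ (fun v => W v i j) J)
    (hγ : ∀ i, ContDiffOn ℝ ∞ (fun v => γ v i) J) (hs : ∀ v i j, W v i j = - W v j i) :
    ∃ (I : Set ℝ) (M : ℝ → Fin 3 → Fin 3 → ℝ) (c : ℝ → Fin 3 → ℝ), IsOpen I ∧ v₀ ∈ I ∧ I ⊆ J ∧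
      (∀ i j, ContDiffOn ℝ ∞ (fun v => M v i j) I) ∧ (∀ i, ContDiffOn ℝ ∞ (fun v => c v i) I) ∧
      (∀ v ∈ I, ∀ i j, HasDerivAt (fun v => M v i j) (∑ k, M v i k * W v k j) v) ∧
      (∀ v ∈ I, ∀ i, HasDerivAt (fun v => c v i) (∑ k, M v i k * γ v k) v) ∧
      (∀ v ∈ I, ∀ j k, ∑ i, M v i j * M v i k = if j = k then 1 else 0) := by
  let F : ℝ × (Fin 3 → Fin 3 → ℝ) × (Fin 3 → ℝ) → ℝ × (Fin 3 → Fin 3 → ℝ) × (Fin 3 → ℝ) :=
    fun x => (1, (fun i j => ∑ k, x.2.1 i k * W x.1 k j), (fun i => ∑ k, x.2.1 i k * γ x.1 k))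
  let x₀ : ℝ × (Fin 3 → Fin 3 → ℝ) × (Fin 3 → ℝ) :=
    (v₀, (fun i j => if i = j then 1 else 0), fun _ => 0)
  have hJn : J ∈ 𝓝 v₀ := hJ.mem_nhds hv
  have hM : ∀ i k : Fin 3, ContDiffAt ℝ 1
      (fun x : ℝ × (Fin 3 → Fin 3 → ℝ) × (Fin 3 → ℝ) => x.2.1 i k) x₀ := by
    intro i k
    have h1 : ContDiff ℝ 1 (fun x : ℝ × (Fin 3 → Fin 3 → ℝ) × (Fin 3 → ℝ) => x.2.1) :=
      contDiff_fst.comp contDiff_snd
    have h2 := (contDiff_pi.1 h1) i
    exact ((contDiff_pi.1 h2) k).contDiffAt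
  have hWc : ∀ i k : Fin 3, ContDiffAt ℝ 1
      (fun x : ℝ × (Fin 3 → Fin 3 → ℝ) × (Fin 3 → ℝ) => W x.1 i k) x₀ := by
    intro i k
    have h1 : ContDiffAt ℝ 1 (fun v => W v i k) v₀ :=
      ((hW i k).contDiffAt hJn).of_le (by exact_mod_cast le_top)
    exact ContDiffAt.comp x₀ (g := fun v => W v i k) h1 contDiff_fst.contDiffAt
  have hγc : ∀ k : Fin 3, ContDiffAt ℝ 1
      (fun x : ℝ × (Fin 3 → Fin 3 → ℝ) × (Fin 3 → ℝ) => γ x.1 k) x₀ := by
    intro k
    have h1 : ContDiffAt ℝ 1 (fun v => γ v k) v₀ :=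
      ((hγ k).contDiffAt hJn).of_le (by exact_mod_cast le_top)
    exact ContDiffAt.comp x₀ (g := fun v => γ v k) h1 contDiff_fst.contDiffAt
  have hF : ContDiffAt ℝ 1 F x₀ := by
    refine contDiffAt_const.prodMk (ContDiffAt.prodMk ?_ ?_)
    · refine contDiffAt_pi.2 fun i => contDiffAt_pi.2 fun j => ?_
      exact ContDiffAt.sum fun k _ => (hM i k).mul (hWc k j)
    · refine contDiffAt_pi.2 fun i => ?_
      exact ContDiffAt.sum fun k _ => (hM i k).mul (hγc k)
  obtain ⟨α, hα0, ε, hε, hα⟩ :=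
    ContDiffAt.exists_forall_mem_closedBall_exists_eq_forall_mem_Ioo_hasDerivAt₀ hF v₀
  obtain ⟨δ, hδ, hball⟩ := Metric.mem_nhds_iff.1 hJn
  set η := min ε δ with hη
  have hηpos : 0 < η := lt_min hε hδ
  set I := Ioo (v₀ - η) (v₀ + η) with hI
  have hIε : ∀ t ∈ I, t ∈ Ioo (v₀ - ε) (v₀ + ε) := fun t ht =>
    ⟨by have := min_le_left ε δ; linarith [ht.1], by have := min_le_left ε δ; linarith [ht.2]⟩
  have hIJ : I ⊆ J := by
    intro t ht
    apply hball
    rw [Metric.mem_ball, Real.dist_eq, abs_lt]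
    have := min_le_right ε δ
    constructor <;> linarith [ht.1, ht.2]
  have hv0 : v₀ ∈ I := ⟨by linarith, by linarith⟩
  -- the time component
  have hτ' : ∀ t ∈ I, HasDerivAt (fun t => (α t).1) 1 t := fun t ht =>
    fst_deriv (hα t (hIε t ht))
  have hτ : ∀ t ∈ I, (α t).1 = t := by
    intro t ht
    have h1 : ∀ s ∈ Ioo (v₀ - η) (v₀ + η), HasDerivAt (fun s => (α s).1 - s) 0 s := by
      intro s hs'
      have := (hτ' s hs').fun_sub (hasDerivAt_id' s)
      simpa using this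
    have h2 := const_of_deriv_zero h1 ht hv0
    have h3 : (α v₀).1 = v₀ := by rw [hα0]
    linarith
  have hM' : ∀ t ∈ I, ∀ i j, HasDerivAt (fun v => (α v).2.1 i j)
      (∑ k, (α t).2.1 i k * W t k j) t := by
    intro t ht i j
    have h1 : HasDerivAt (fun v => (α v).2) (F (α t)).2 t :=
      snd_deriv (hα t (hIε t ht))
    have h2 : HasDerivAt (fun v => (α v).2.1) (F (α t)).2.1 t :=
      fst_deriv h1
    have h3 := (hasDerivAt_pi.1 ((hasDerivAt_pi.1 h2) i)) j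
    have h4 : (F (α t)).2.1 i j = ∑ k, (α t).2.1 i k * W t k j := by
      show ∑ k, (α t).2.1 i k * W (α t).1 k j = _
      rw [hτ t ht]
    rw [h4] at h3
    exact h3
  have hc' : ∀ t ∈ I, ∀ i, HasDerivAt (fun v => (α v).2.2 i)
      (∑ k, (α t).2.1 i k * γ t k) t := by
    intro t ht i
    have h1 : HasDerivAt (fun v => (α v).2) (F (α t)).2 t :=
      snd_deriv (hα t (hIε t ht))
    have h2 : HasDerivAt (fun v => (α v).2.2) (F (α t)).2.2 t :=
      snd_deriv h1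
    have h3 := (hasDerivAt_pi.1 h2) i
    have h4 : (F (α t)).2.2 i = ∑ k, (α t).2.1 i k * γ t k := by
      show ∑ k, (α t).2.1 i k * γ (α t).1 k = _
      rw [hτ t ht]
    rw [h4] at h3
    exact h3
  -- smoothness
  have hsm : ∀ n : ℕ, ∀ i j, ContDiffOn ℝ n (fun v => (α v).2.1 i j) I := by
    intro n
    induction n with
    | zero =>
      intro i j
      rw [Nat.cast_zero, contDiffOn_zero]
      exact fun t ht => (hM' t ht i j).continuousAt.continuousWithinAt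
    | succ n ih =>
      intro i j
      rw [Nat.cast_succ, contDiffOn_succ_iff_deriv_of_isOpen isOpen_Ioo]
      refine ⟨fun t ht => (hM' t ht i j).differentiableAt.differentiableWithinAt, ?_, ?_⟩
      · intro h
        exact absurd h (by exact_mod_cast (WithTop.coe_ne_top))
      · have h1 : ContDiffOn ℝ n (fun t => ∑ k, (α t).2.1 i k * W t k j) I :=
          ContDiffOn.sum fun k _ => (ih i k).mul
            (((hW k j).mono hIJ).of_le (by exact_mod_cast le_top))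
        exact h1.congr fun t ht => (hM' t ht i j).deriv
  have hsmM : ∀ i j, ContDiffOn ℝ ∞ (fun v => (α v).2.1 i j) I := fun i j =>
    contDiffOn_infty.2 fun n => hsm n i j
  have hsmc : ∀ i, ContDiffOn ℝ ∞ (fun v => (α v).2.2 i) I := by
    intro i
    rw [contDiffOn_infty_iff_deriv_of_isOpen isOpen_Ioo]
    refine ⟨fun t ht => (hc' t ht i).differentiableAt.differentiableWithinAt, ?_⟩
    have h1 : ContDiffOn ℝ ∞ (fun t => ∑ k, (α t).2.1 i k * γ t k) I :=
      ContDiffOn.sum fun k _ => (hsmM i k).mul ((hγ k).mono hIJ)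
    exact h1.congr fun t ht => (hc' t ht i).deriv
  -- orthogonality
  have horth : ∀ t ∈ I, ∀ i j, ∑ k, (α t).2.1 i k * (α t).2.1 j k = if i = j then 1 else 0 := by
    intro t ht i j
    have h1 : ∀ s ∈ Ioo (v₀ - η) (v₀ + η),
        HasDerivAt (fun s => ∑ k, (α s).2.1 i k * (α s).2.1 j k) 0 s := by
      intro s hs'
      have h2 : HasDerivAt (fun s => ∑ k, (α s).2.1 i k * (α s).2.1 j k)
          (∑ k, ((∑ l, (α s).2.1 i l * W s l k) * (α s).2.1 j k +
            (α s).2.1 i k * (∑ l, (α s).2.1 j l * W s l k))) s :=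
        HasDerivAt.fun_sum fun k _ => (hM' s hs' i k).mul (hM' s hs' j k)
      convert h2 using 1
      simp only [Fin.sum_univ_three]
      have h00 := hs s 0 0
      have h11 := hs s 1 1
      have h22 := hs s 2 2
      have e00 : W s 0 0 = 0 := by linarith
      have e11 : W s 1 1 = 0 := by linarith
      have e22 : W s 2 2 = 0 := by linarith
      rw [e00, e11, e22, hs s 1 0, hs s 2 0, hs s 2 1]
      ring
    have h2 := const_of_deriv_zero h1 ht hv0
    rw [h2, hα0]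
    fin_cases i <;> fin_cases j <;> simp [x₀]
  refine ⟨I, fun v => (α v).2.1, fun v => (α v).2.2, isOpen_Ioo, hv0, hIJ, hsmM, hsmc, hM', hc',
    ?_⟩
  intro t ht j k
  have h1 : (Matrix.of (α t).2.1) * (Matrix.of (α t).2.1).transpose = 1 := by
    ext i l
    rw [Matrix.mul_apply, Matrix.one_apply]
    simpa using horth t ht i l
  have h2 : (Matrix.of (α t).2.1).transpose * (Matrix.of (α t).2.1) = 1 :=
    mul_eq_one_comm.1 h1
  have h3 := congrFun (congrFun h2 j) k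
  rw [Matrix.mul_apply, Matrix.one_apply] at h3
  simpa using h3

end Vale.Agent.P229
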