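import Vale.Agent.P229.Frame

/-!
# P229: surfaces swept by a rigidly moving curve, local realization
-/

set_option autoImplicit false

open Set
open scoped ContDiff Topology

namespace Vale.Agent.P229

/-- The symmetric 2-tensor `E du² + 2 F du dv + G dv²` is induced, on a neighbourhood of
`(u₀, v₀)`, by a `C^∞` map `X = (X 0, X 1, X 2)` into Euclidean three-space. -/
def Realizable (E F G : ℝ → ℝ → ℝ) (u₀ v₀ : ℝ) : Prop :=
  ∃ (U : Set (ℝ × ℝ)) (X : Fin 3 → ℝ × ℝ → ℝ), IsOpen U ∧ (u₀, v₀) ∈ U ∧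
    (∀ i, ContDiffOn ℝ ∞ (X i) U) ∧ ∀ q ∈ U,
      ∑ i, fderiv ℝ (X i) q (1, 0) * fderiv ℝ (X i) q (1, 0) = E q.1 q.2 ∧
      ∑ i, fderiv ℝ (X i) q (1, 0) * fderiv ℝ (X i) q (0, 1) = F q.1 q.2 ∧
      ∑ i, fderiv ℝ (X i) q (0, 1) * fderiv ℝ (X i) q (0, 1) = G q.1 q.2

theorem kin (L J : Set ℝ) (hL : IsOpen L) (hJ : IsOpen J) (u₀ v₀ : ℝ) (hu : u₀ ∈ L) (hv : v₀ ∈ J)
    (p P : ℝ → Fin 3 → ℝ) (W : ℝ → Fin 3 → Fin 3 → ℝ) (γ : ℝ → Fin 3 → ℝ)
    (hp : ∀ u ∈ L, ∀ j, HasDerivAt (fun u => p u j) (P u j) u)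
    (hP : ∀ j, ContDiffOn ℝ ∞ (fun u => P u j) L)
    (hW : ∀ i j, ContDiffOn ℝ ∞ (fun v => W v i j) J)
    (hγ : ∀ i, ContDiffOn ℝ ∞ (fun v => γ v i) J) (hs : ∀ v i j, W v i j = - W v j i)
    (E F G : ℝ → ℝ → ℝ)
    (hE : ∀ u ∈ L, ∀ v ∈ J, E u v = ∑ j, P u j * P u j)
    (hF : ∀ u ∈ L, ∀ v ∈ J, F u v = ∑ j, P u j * (γ v j + ∑ k, W v j k * p u k))
    (hG : ∀ u ∈ L, ∀ v ∈ J, G u v =
      ∑ j, (γ v j + ∑ k, W v j k * p u k) * (γ v j + ∑ k, W v j k * p u k)) :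
    Realizable E F G u₀ v₀ := by
  obtain ⟨I, M, c, hI, hvI, hIJ, hM, hc, hM', hc', horth⟩ := frame J hJ v₀ hv W γ hW hγ hs
  have hpS : ∀ j, ContDiffOn ℝ ∞ (fun u => p u j) L := by
    intro j
    rw [contDiffOn_infty_iff_deriv_of_isOpen hL]
    exact ⟨fun u hu' => (hp u hu' j).differentiableAt.differentiableWithinAt,
      (hP j).congr fun u hu' => (hp u hu' j).deriv⟩
  refine ⟨L ×ˢ I, fun i q => c q.2 i + ∑ j, M q.2 i j * p q.1 j, hL.prod hI, ⟨hu, hvI⟩, ?_, ?_⟩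
  · intro i
    have h1 : ContDiffOn ℝ ∞ (fun q : ℝ × ℝ => c q.2 i) (L ×ˢ I) :=
      (hc i).comp contDiff_snd.contDiffOn fun q hq => hq.2
    refine h1.add (ContDiffOn.sum fun j _ => ?_)
    exact ((hM i j).comp contDiff_snd.contDiffOn fun q hq => hq.2).mul
      ((hpS j).comp contDiff_fst.contDiffOn fun q hq => hq.1)
  · rintro ⟨u, v⟩ ⟨hu', hv'⟩
    have hD : ∀ i, HasFDerivAt (fun q : ℝ × ℝ => c q.2 i + ∑ j, M q.2 i j * p q.1 j)
        ((∑ k, M v i k * γ v k) • ContinuousLinearMap.snd ℝ ℝ ℝ +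
          ∑ j, (M v i j • (P u j • ContinuousLinearMap.fst ℝ ℝ ℝ) +
            p u j • ((∑ k, M v i k * W v k j) • ContinuousLinearMap.snd ℝ ℝ ℝ))) (u, v) := by
      intro i
      have h1 : HasFDerivAt (fun q : ℝ × ℝ => c q.2 i)
          ((∑ k, M v i k * γ v k) • ContinuousLinearMap.snd ℝ ℝ ℝ) (u, v) :=
        HasDerivAt.comp_hasFDerivAt (u, v) (h₂ := fun v => c v i) (hc' v hv' i) hasFDerivAt_snd
      refine h1.add (HasFDerivAt.fun_sum fun j _ => ?_)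
      have h2 : HasFDerivAt (fun q : ℝ × ℝ => M q.2 i j)
          ((∑ k, M v i k * W v k j) • ContinuousLinearMap.snd ℝ ℝ ℝ) (u, v) :=
        HasDerivAt.comp_hasFDerivAt (u, v) (h₂ := fun v => M v i j) (hM' v hv' i j)
          hasFDerivAt_snd
      have h3 : HasFDerivAt (fun q : ℝ × ℝ => p q.1 j)
          (P u j • ContinuousLinearMap.fst ℝ ℝ ℝ) (u, v) :=
        HasDerivAt.comp_hasFDerivAt (u, v) (h₂ := fun u => p u j) (hp u hu' j) hasFDerivAt_fst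
      exact h2.mul h3
    have h10 : ∀ i, fderiv ℝ (fun q : ℝ × ℝ => c q.2 i + ∑ j, M q.2 i j * p q.1 j) (u, v)
        (1, 0) = ∑ j, M v i j * P u j := by
      intro i
      rw [(hD i).fderiv]
      simp
    have h01 : ∀ i, fderiv ℝ (fun q : ℝ × ℝ => c q.2 i + ∑ j, M q.2 i j * p q.1 j) (u, v)
        (0, 1) = ∑ k, M v i k * (γ v k + ∑ j, W v k j * p u j) := by
      intro i
      rw [(hD i).fderiv]
      simp only [Fin.sum_univ_three, ContinuousLinearMap.add_apply,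
        ContinuousLinearMap.smul_apply, ContinuousLinearMap.coe_snd', ContinuousLinearMap.coe_fst',
        smul_eq_mul]
      ring
    have hkey : ∀ a b : Fin 3 → ℝ, ∑ i, (∑ j, M v i j * a j) * (∑ k, M v i k * b k) =
        ∑ j, a j * b j := by
      intro a b
      have h00 := horth v hv' 0 0
      have h01' := horth v hv' 0 1
      have h02 := horth v hv' 0 2
      have h11 := horth v hv' 1 1
      have h12 := horth v hv' 1 2
      have h22 := horth v hv' 2 2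
      simp only [Fin.sum_univ_three, if_true, Fin.reduceEq, if_false] at h00 h01' h02 h11 h12 h22 ⊢
      linear_combination a 0 * b 0 * h00 + a 1 * b 1 * h11 + a 2 * b 2 * h22 +
        (a 0 * b 1 + a 1 * b 0) * h01' + (a 0 * b 2 + a 2 * b 0) * h02 +
        (a 1 * b 2 + a 2 * b 1) * h12
    refine ⟨?_, ?_, ?_⟩
    · simp only [h10]
      rw [hkey (fun j => P u j) (fun j => P u j), hE u hu' v (hIJ hv')]
    · simp only [h10, h01]
      rw [hkey (fun j => P u j) (fun k => γ v k + ∑ j, W v k j * p u j), hF u hu' v (hIJ hv')]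
    · simp only [h01]
      rw [hkey (fun k => γ v k + ∑ j, W v k j * p u j) (fun k => γ v k + ∑ j, W v k j * p u j),
        hG u hu' v (hIJ hv')]

end Vale.Agent.P229
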